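import Vale.Agent.P235.K5.GX.Defs
import Vale.Agent.P235.K5.SX.Asm
import Vale.Agent.P235.K5.SX.H964.Mix
import Vale.Agent.P235.K5.GX.H473.AGen

set_option autoImplicit false
set_option linter.all false

/-!
# Line GX, the assembly (helper473): [G5] from S2, S4, S5, G3, G4
-/

namespace Vale.Agent.P235.K5.GX

open SimpleGraph Vale.Agent.P235 Vale.Agent.P235.K5 Vale.Agent.P235.K5.SX

/-- the regions of the final tree -/
theorem regionX {kk n : ℕ} {V : Type} {H : SimpleGraph V} {B : ℕ → Set V} {T : ℕ → Prop}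
    {M : ℕ → Set V} {H' : SimpleGraph V} {m : ℕ} {C : ℕ → Set V} {phi : ℕ → ℕ} {big : ℕ → Prop}
    (h : RefM kk H n B T M H' m C phi big) (Y : BTree m C) :
    Region m C Y (fun s => ¬ big s) (fun s => Adh B (phi s)) where
  one := h.one
  step := by
    intro s hs hT h0
    by_cases hsub : Adh C s ⊆ Adh B (phi s)
    · exact Or.inl hsub
    · right
      rw [Set.not_subset] at hsub
      obtain ⟨u, hu, hu'⟩ := hsub
      have h1 : u ∈ B (phi s) := h.sub s hs hu.1
      have h2 : u ∉ Bef B (phi s) := fun hc => hu' ⟨h1, hc⟩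
      have h3 : Y.par s < s := Y.par_lt s h0 hs
      have h4 : u ∈ B (phi (Y.par s)) := h.sub _ (h3.trans hs) (Y.adh s h0 hs hu)
      have h5 : phi (Y.par s) ≤ phi s := h.mono _ _ h3.le hs
      have h6 : phi (Y.par s) = phi s := by
        rcases h5.lt_or_eq with h7 | h7
        · exact absurd ⟨_, h7, h4⟩ h2
        · exact h7
      refine ⟨fun hb => ?_, by rw [h6]⟩
      have h7 := (h.last _ (h3.trans hs) hb).2 s hs h6.symm
      omega

/-- the relation on the bag `t` -/
def QRel {V : Type} (m : ℕ) (k η : ℝ) (d : V → V → ℝ) (B : ℕ → Set V) (T : ℕ → Prop)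
    (t : ℕ) (F : V → V → ℝ) : Prop :=
  (T t → ∀ x ∈ B t, ∀ y ∈ B t, Tri3 k True d F (Adh B t) x y) ∧
    (¬ T t → ∃ M : Set V, Adh B t ⊆ M ∧ M ⊆ B t ∧ M.ncard ≤ m + 3 ∧
      ∀ x ∈ B t, ∀ y ∈ B t, Tri4 k η d F (Adh B t) M x y)

/-- the A side -/
theorem exists_AX (h2 : S2Stmt) (h3 : G3Stmt) {m : ℕ} {c η : ℝ} (hc : 0 < c) (hc1 : c ≤ 1)
    (hη : 0 < η) (hη1 : η ≤ 1 / 2048) {V : Type} [Finite V] {H : SimpleGraph V} {n : ℕ}
    {B : ℕ → Set V} {T : ℕ → Prop} (h : Glued 3 H n B)
    (hB : ∀ t < n, T t ∨ QC c m (B t) (H.induce (B t)) {x | (x : V) ∈ Adh B t})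
    {d : V → V → ℝ} (hd : IsMet d) (hG : Gen H d) :
    ∃ A : V → V → ℝ, IsL1 A ∧ (∀ x y, A x y ≤ d x y) ∧
      ∀ t < n, QRel m (c * η / 12288) η d B T t A := by
  refine H473.exists_AQ h hd hG (QRel m (c * η / 12288) η d B T) ?_ ?_
  · rintro t F F' hFF ⟨g1, g2⟩
    have hsub : Adh B t ⊆ B t := fun v hv => hv.1
    refine ⟨fun hT x hx y hy => ?_, fun hT => ?_⟩
    · rcases g1 hT x hx y hy with h5 | ⟨r, hr, s, hs, h5⟩ | h5
      · left; rw [hFF x hx y hy]; exact h5
      · right; left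
        refine ⟨r, hr, s, hs, ?_⟩
        rw [hFF x hx y hy, hFF r (hsub hr) s (hsub hs)]; exact h5
      · exact Or.inr (Or.inr h5)
    · obtain ⟨M, e1, e2, e3, e4⟩ := g2 hT
      refine ⟨M, e1, e2, e3, fun x hx y hy => ?_⟩
      rcases e4 x hx y hy with h5 | ⟨r, hr, s, hs, h5⟩ | h5
      · left; rw [hFF x hx y hy]; exact h5
      · right; left
        refine ⟨r, hr, s, hs, ?_⟩
        rw [hFF x hx y hy, hFF r (hsub hr) s (hsub hs)]; exact h5
      · exact Or.inr (Or.inr h5)
  intro t ht ρ hρ hρd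
  have hsub : Adh B t ⊆ B t := fun v hv => hv.1
  have hd' : IsMet fun x y : B t => d x y :=
    ⟨fun x => hd.self _, fun x y hxy => hd.pos _ _ fun e => hxy (Subtype.ext e),
      fun x y => hd.symm _ _, fun x y z => hd.tri _ _ _⟩
  have hG' : Gen (H.induce (B t)) fun x y : B t => d x y := h.gen_bag hd hG ht
  have hcard : ({x | (x : V) ∈ Adh B t} : Set (B t)).ncard ≤ 3 := by
    rw [H500.ncard_sub hsub]; exact h.card t ht
  have hk : c * η / 12288 ≤ 1 / 1024 := by
    have : c * η ≤ 1 * 1 := mul_le_mul hc1 (by linarith) hη.le (by norm_num)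
    linarith
  by_cases hT : T t
  · obtain ⟨F, g1, g2, g3, g4⟩ := h2 (B t) (fun x y : B t => d x y) hd'
      {x | (x : V) ∈ Adh B t} hcard (fun x y : B t => ρ x y) (H500.isL1_restrict hρ _)
      (fun u hu v hv => hρd u hu v hv)
    obtain ⟨F', e1, e2⟩ := extendL1 g1
    refine ⟨F', e1, ?_, ?_, ?_, fun h => absurd hT h⟩
    · intro x hx y hy
      exact (e2 ⟨x, hsub hx⟩ ⟨y, hsub hy⟩).trans (g2 _ hx _ hy)
    · intro x hx y hy
      rw [e2 ⟨x, hx⟩ ⟨y, hy⟩]
      exact g3 _ _
    · intro _ x hx y hy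
      have hdn := hd.nonneg x y
      rcases g4 ⟨x, hx⟩ ⟨y, hy⟩ with h5 | ⟨r, hr, s, hs, h5⟩ | ⟨_, h5⟩
      · left
        rw [e2 ⟨x, hx⟩ ⟨y, hy⟩]
        have h6 : c * η / 12288 * d x y ≤ 1 / 1024 * d x y :=
          mul_le_mul_of_nonneg_right hk hdn
        exact h6.trans h5
      · right; left
        refine ⟨r, hr, s, hs, ?_⟩
        rw [e2 ⟨x, hx⟩ ⟨y, hy⟩, e2 r s]
        have h6 : 0 ≤ d x r + d y s := add_nonneg (hd.nonneg _ _) (hd.nonneg _ _)
        have h7 : c * η / 12288 * (d x r + d y s) ≤ 1 / 1024 * (d x r + d y s) :=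
          mul_le_mul_of_nonneg_right hk h6
        have h8 : F r s + 1 / 1024 * (d x r + d y s) ≤ F ⟨x, hx⟩ ⟨y, hy⟩ := h5
        linarith
      · right; right
        refine ⟨trivial, fun r hr s hs => ?_⟩
        have h8 : 1 / 1024 * d x y ≤ d x r + d y s := h5 ⟨r, hsub hr⟩ hr ⟨s, hsub hs⟩ hs
        have h6 : c * η / 12288 * d x y ≤ 1 / 1024 * d x y :=
          mul_le_mul_of_nonneg_right hk hdn
        exact h6.trans h8
  · have hQ := (hB t ht).resolve_left hT
    obtain ⟨F, M, g1, g2, g3, gM, gc, g4⟩ := h3 m c η hc hc1 hη hη1 (B t) (H.induce (B t))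
      {x | (x : V) ∈ Adh B t} hQ hcard
      (fun u hu v hv huv => h.clique t ht u hu v hv fun e => huv (Subtype.ext e))
      (fun x y : B t => d x y) hd' hG' (fun x y : B t => ρ x y) (H500.isL1_restrict hρ _)
      (fun u hu v hv => hρd u hu v hv)
    obtain ⟨F', e1, e2⟩ := extendL1 g1
    refine ⟨F', e1, ?_, ?_, fun h => absurd h hT, fun _ => ?_⟩
    · intro x hx y hy
      exact (e2 ⟨x, hsub hx⟩ ⟨y, hsub hy⟩).trans (g2 _ hx _ hy)
    · intro x hx y hy
      rw [e2 ⟨x, hx⟩ ⟨y, hy⟩]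
      exact g3 _ _
    · refine ⟨Subtype.val '' M, ?_, ?_, ?_, ?_⟩
      · intro v hv
        exact ⟨⟨v, hsub hv⟩, gM hv, rfl⟩
      · rintro _ ⟨v, _, rfl⟩
        exact v.2
      · exact (Set.ncard_image_le (Set.toFinite M)).trans gc
      · intro x hx y hy
        rcases g4 ⟨x, hx⟩ ⟨y, hy⟩ with h5 | ⟨r, hr, s, hs, h5⟩ | ⟨h5, p, hp, q, hq, h6⟩
        · left
          rw [e2 ⟨x, hx⟩ ⟨y, hy⟩]
          exact h5
        · right; left
          refine ⟨r, hr, s, hs, ?_⟩
          rw [e2 ⟨x, hx⟩ ⟨y, hy⟩, e2 r s]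
          exact h5
        · right; right
          exact ⟨fun r hr s hs => h5 ⟨r, hsub hr⟩ hr ⟨s, hsub hs⟩ hs, p, ⟨p, hp, rfl⟩, q,
            ⟨q, hq, rfl⟩, h6⟩

/-- the mixture on the bags of the final tree -/
theorem mixX {w0 kk n n' : ℕ} {V : Type} {H H' : SimpleGraph V} {B B' : ℕ → Set V}
    (h : Glued w0 H n B) (h' : Glued kk H' n' B') (hle : H ≤ H') (φ : ℕ → ℕ)
    (hφ : ∀ s s', s ≤ s' → s' < n' → φ s ≤ φ s') (hφn : ∀ s < n', φ s < n)
    (hsub : ∀ s < n', B' s ⊆ B (φ s))
    (hcov : ∀ t < n, ∀ v ∈ B t, ∃ s < n', φ s ≤ t ∧ v ∈ B' s)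
    {d A N : V → V → ℝ} (hd : IsMet d) (hA : IsL1 A) (hN : IsL1 N)
    (hN1 : ∀ x y, N x y ≤ d x y) {k κ : ℝ} (hk : 0 < k) (hk1 : k ≤ 1) (hκ : 0 < κ)
    (hTri : ∀ s < n', ∀ x ∈ B' s, ∀ y ∈ B' s, k * d x y ≤ A x y ∨
      (∃ r ∈ Adh B (φ s), ∃ u ∈ Adh B (φ s), A r u + k * (d x r + d y u) ≤ A x y) ∨
      κ * d x y ≤ N x y) :
    ∀ s < n', ∀ x ∈ B' s, ∀ y ∈ B' s,
      min (k / 2) (k / 4 * κ) * d x y ≤ H964.mixF k A N x y := by
  set c : ℝ := min (k / 2) (k / 4 * κ) with hc
  have hc0 : 0 < c := lt_min (by positivity) (by positivity)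
  have hc1 : c ≤ k / 2 := min_le_left _ _
  have hc2 : c ≤ k / 4 * κ := min_le_right _ _
  have key : ∀ t : ℕ, ∀ s < n', φ s = t → ∀ x ∈ B' s, ∀ y ∈ B' s,
      c * d x y ≤ H964.mixF k A N x y := by
    intro t
    induction t using Nat.strong_induction_on with
    | _ t ih =>
      intro s hs hst x hx y hy
      have htn : t < n := hst ▸ hφn s hs
      have hd0 : 0 ≤ d x y := hd.nonneg x y
      have hA0 := hA.nonneg x y
      have hN0 := hN.nonneg x y
      have hcd : c * d x y ≤ k / 2 * d x y := mul_le_mul_of_nonneg_right hc1 hd0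
      show c * d x y ≤ (1 - k / 4) * A x y + k / 4 * N x y
      rcases hTri s hs x hx y hy with h1 | ⟨r, hr, u, hu, h1⟩ | h1
      · have h2 : (1 - k / 4) * (k * d x y) ≤ (1 - k / 4) * A x y :=
          mul_le_mul_of_nonneg_left h1 (by linarith)
        have h3 : k / 2 * d x y ≤ (1 - k / 4) * (k * d x y) := by
          have : 0 ≤ (1 / 2 - k / 4) * (k * d x y) :=
            mul_nonneg (by linarith) (mul_nonneg hk.le hd0)
          nlinarith
        have h4 : 0 ≤ k / 4 * N x y := mul_nonneg (by linarith) hN0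
        linarith
      · rw [hst] at hr hu
        obtain ⟨s₁, hs₁, h2, h3⟩ := H964.earlier h' φ hφ (n := n) (t := t) (C := Adh B t)
          (fun a ha b hb hab => hle (h.clique t htn a ha b hb hab)) ⟨r, hr⟩ (by
            intro v hv
            obtain ⟨t₀, ht₀, hv₀⟩ := hv.2
            obtain ⟨s₀, hs₀, h4, h5⟩ := hcov t₀ (by omega) v hv₀
            exact ⟨s₀, hs₀, by omega, h5⟩)
        have h4 : c * d r u ≤ (1 - k / 4) * A r u + k / 4 * N r u :=
          ih (φ s₁) h2 s₁ hs₁ rfl r (h3 hr) u (h3 hu)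
        have h5 : N r u ≤ d x r + N x y + d y u := by
          have e1 := hN.tri r x u
          have e2 := hN.tri x y u
          have e3 := hN1 x r
          have e4 := hN1 y u
          have e5 := hN.symm r x
          linarith
        have h6 : (1 - k / 4) * (A r u + k * (d x r + d y u)) ≤ (1 - k / 4) * A x y :=
          mul_le_mul_of_nonneg_left h1 (by linarith)
        have h7 : k / 4 * N r u ≤ k / 4 * (d x r + N x y + d y u) :=
          mul_le_mul_of_nonneg_left h5 (by linarith)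
        have h8 : d x y ≤ d x r + d r u + d y u := by
          have e1 := hd.tri x r y
          have e2 := hd.tri r u y
          have e3 := hd.symm u y
          linarith
        have h9 : c * d x y ≤ c * (d x r + d r u + d y u) :=
          mul_le_mul_of_nonneg_left h8 hc0.le
        have h10 : 0 ≤ d x r + d y u := add_nonneg (hd.nonneg _ _) (hd.nonneg _ _)
        have h11 : c * (d x r + d y u) ≤ ((1 - k / 4) * k - k / 4) * (d x r + d y u) := by
          refine mul_le_mul_of_nonneg_right ?_ h10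
          nlinarith
        nlinarith
      · have h3 : k / 4 * (κ * d x y) ≤ k / 4 * N x y :=
          mul_le_mul_of_nonneg_left h1 (by linarith)
        have h4 : c * d x y ≤ k / 4 * κ * d x y := mul_le_mul_of_nonneg_right hc2 hd0
        have h5 : 0 ≤ (1 - k / 4) * A x y := mul_nonneg (by linarith) hA0
        nlinarith
  intro s hs
  exact key (φ s) s hs rfl

/-- **[G5] the embedding** -/
theorem embX (h2 : S2Stmt) (h3 : G3Stmt) (h4 : NStmt) (h5 : S5Stmt) (h6 : G4Stmt)
    (w m : ℕ) (c : ℝ) (hc : 0 < c) (hc1 : c ≤ 1) :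
    ∃ D : ℝ, 0 < D ∧ D ≤ 1 ∧ ∀ (V : Type) [Finite V] (H : SimpleGraph V) (n : ℕ) (B : ℕ → Set V)
      (T : ℕ → Prop), Glued 3 H n B →
      (∀ t < n, T t → TreewidthLE (H.induce (B t)) w) →
      (∀ t < n, T t ∨ QC c m (B t) (H.induce (B t)) {x | (x : V) ∈ Adh B t}) →
      ∀ d : V → V → ℝ, IsMet d → Gen H d → R2.H598.Emb d D := by
  obtain ⟨cN, C2, hcN, hcN1, hC2, HN⟩ := h4 (max 3 w + (m + 3)) (by omega)
  set η : ℝ := cN / 4096 with hηdef
  have hη : 0 < η := by positivity
  have hη1 : η ≤ 1 / 2048 := by rw [hηdef]; linarith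
  set k : ℝ := c * η / 12288 with hkdef
  have hk : 0 < k := by positivity
  have hcη : c * η ≤ 1 * 1 := mul_le_mul hc1 (by linarith) hη.le (by norm_num)
  have hk1 : k ≤ 1 := by rw [hkdef]; linarith
  set κ : ℝ := min (cN * k) (cN / 2048) with hκdef
  have hκ : 0 < κ := lt_min (by positivity) (by positivity)
  set c0 : ℝ := min (k / 2) (k / 4 * κ) with hc0def
  have hc0 : 0 < c0 := lt_min (by positivity) (by positivity)
  have hc01 : c0 ≤ 1 := (min_le_left _ _).trans (by linarith)
  refine ⟨min (c0 / 2) (c0 / (8 * C2)) / 2, ?_, ?_, ?_⟩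
  · have : 0 < min (c0 / 2) (c0 / (8 * C2)) := lt_min (by positivity) (by positivity)
    linarith
  · have : min (c0 / 2) (c0 / (8 * C2)) ≤ c0 / 2 := min_le_left _ _
    linarith
  intro V _ H n B T hG hTw hB d hd hgen
  obtain ⟨H₁, m₁, C₁, phi₁, hF₁⟩ := h5 w V H n B T hG hTw
  obtain ⟨A, hA0, hA1, hA2⟩ := exists_AX h2 h3 hc hc1 hη hη1 hG hB hd hgen
  -- the marks
  have hM : ∀ t, ∃ M : Set V, t < n → ¬ T t → Adh B t ⊆ M ∧ M ⊆ B t ∧ M.ncard ≤ m + 3 ∧
      ∀ x ∈ B t, ∀ y ∈ B t, Tri4 k η d A (Adh B t) M x y := by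
    intro t
    by_cases ht : t < n
    · by_cases hT : T t
      · exact ⟨∅, fun _ h => absurd hT h⟩
      · obtain ⟨M, hM⟩ := (hA2 t ht).2 hT
        exact ⟨M, fun _ _ => hM⟩
    · exact ⟨∅, fun h => absurd h ht⟩
  choose M hM using hM
  obtain ⟨H', m', C, phi, big, hF⟩ := h6 w (m + 3) V H n B T H₁ m₁ C₁ phi₁ hG hF₁ M
    (fun t ht hT => ⟨(hM t ht hT).1, (hM t ht hT).2.1, (hM t ht hT).2.2.1⟩)
  obtain ⟨Y⟩ := hF.glued.exists_tree
  have hgen' : Gen H' d := gen_le hF.le hgen
  obtain ⟨N, hN0, hN1, hN2, hN3⟩ := HN V H' m' C hF.glued Y (fun s => ¬ big s)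
    (fun s => Adh B (phi s)) hF.new (regionX hF Y) d hd hgen'
  have hmix := mixX hG hF.glued hF.le phi hF.mono hF.lt hF.sub hF.cov hd hA0 hN0 hN1 hk hk1 hκ
    (by
      intro s hs x hx y hy
      have hsn := hF.lt s hs
      have hxB := hF.sub s hs hx
      have hyB := hF.sub s hs hy
      have hdn := hd.nonneg x y
      by_cases hT : T (phi s)
      · rcases (hA2 (phi s) hsn).1 hT x hxB y hyB with g | g | ⟨_, g⟩
        · exact Or.inl g
        · exact Or.inr (Or.inl g)
        · right; right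
          have hnb : ¬ big s := fun hb => (hF.last s hs hb).1 hT
          have g1 := hN3 s hs hnb x hx y hy (k * d x y)
            (by nlinarith) (fun r hr r' hr' => g r hr r' hr')
          have g2 : κ * d x y ≤ cN * k * d x y :=
            mul_le_mul_of_nonneg_right (min_le_left _ _) hdn
          linarith
      · obtain ⟨m1, m2, m3, m4⟩ := hM (phi s) hsn hT
        rcases m4 x hxB y hyB with g | g | ⟨g, p, hp, q, hq, g'⟩
        · exact Or.inl g
        · exact Or.inr (Or.inl g)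
        · right; right
          have hdxp := hd.nonneg x p
          have hdyq := hd.nonneg y q
          -- the lower bound at the marks
          have hNpq : cN * ((1 / 1024 - η) * d x y) ≤ N p q := by
            have k1 : (1 / 1024 - η) * d x y ≤ d p q := by
              have e1 := hd.tri x p y
              have e2 := hd.tri p q y
              have e3 := hd.symm q y
              nlinarith
            have k2 : ∀ r ∈ Adh B (phi s), ∀ r' ∈ Adh B (phi s),
                (1 / 1024 - η) * d x y ≤ d p r + d q r' := by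
              intro r hr r' hr'
              have e1 := hd.tri x p r
              have e2 := hd.tri y q r'
              have e3 := g r hr r' hr'
              linarith
            by_cases hpR : p ∈ Adh B (phi s)
            · by_cases hqR : q ∈ Adh B (phi s)
              · have e1 := g p hpR q hqR
                have e2 : (1 / 1024 - η) * d x y ≤ 0 := by linarith
                exact (mul_nonpos_of_nonneg_of_nonpos hcN.le e2).trans (hN0.nonneg _ _)
              · obtain ⟨s', hs', hb', hphi, hq', hp'⟩ := hF.mark (phi s) hsn hT q hq p hp hqR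
                refine hN3 s' hs' hb' p hp' q hq' _ k1 ?_
                intro r hr r' hr'
                rw [hphi] at hr hr'
                exact k2 r hr r' hr'
            · obtain ⟨s', hs', hb', hphi, hp', hq'⟩ := hF.mark (phi s) hsn hT p hp q hq hpR
              refine hN3 s' hs' hb' p hp' q hq' _ k1 ?_
              intro r hr r' hr'
              rw [hphi] at hr hr'
              exact k2 r hr r' hr'
          have e1 := hN0.tri p x q
          have e2 := hN0.tri x y q
          have e3 := hN1 x p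
          have e4 := hN1 y q
          have e5 := hN0.symm p x
          have e6 : κ * d x y ≤ cN / 2048 * d x y :=
            mul_le_mul_of_nonneg_right (min_le_right _ _) hdn
          have e7 : cN * η ≤ η := by nlinarith
          have e8 : cN * η * d x y ≤ η * d x y := mul_le_mul_of_nonneg_right e7 hdn
          have e9 : η * d x y = cN / 4096 * d x y := by rw [hηdef]
          have e10 : cN * ((1 / 1024 - η) * d x y) = cN / 1024 * d x y - cN * η * d x y := by
            ring
          nlinarith)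
  have hk4 : 0 ≤ 1 - k / 4 := by linarith
  have hk5 : 0 ≤ k / 4 := by linarith
  have hFA : IsL1 fun x y => (1 - k / 4) * A x y + k / 4 * N x y :=
    (hA0.smul hk4).add (hN0.smul hk5)
  have hFA1 : ∀ x y, (1 - k / 4) * A x y + k / 4 * N x y ≤ d x y := by
    intro x y
    have g1 := mul_le_mul_of_nonneg_left (hA1 x y) hk4
    have g2 := mul_le_mul_of_nonneg_left (hN1 x y) hk5
    linarith
  have hcr := H12.cross hF.glued Y hd hc0 hc01 hC2 hFA hN0 hFA1 hmix hN2
  refine ⟨fun x y => 1 / 2 * (((1 - k / 4) * A x y + k / 4 * N x y) + N x y),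
    (hFA.add hN0).smul (by norm_num), ?_, ?_⟩
  · intro x y
    have g1 := hcr x y
    show _ ≤ 1 / 2 * (((1 - k / 4) * A x y + k / 4 * N x y) + N x y)
    linarith
  · intro x y
    have g1 := hFA1 x y
    have g2 := hN1 x y
    show 1 / 2 * (((1 - k / 4) * A x y + k / 4 * N x y) + N x y) ≤ _
    linarith

/-- **[G5] the final form** -/
theorem finX_of (h2 : S2Stmt) (h3 : G3Stmt) (h4 : NStmt) (h5 : S5Stmt) (h6 : G4Stmt) : FinX := by
  intro w m c hc hc1
  obtain ⟨D, hD, hD1, HD⟩ := embX h2 h3 h4 h5 h6 w m c hc hc1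
  refine ⟨1 / D, (one_le_div hD).2 hD1, ?_⟩
  intro V _ G H hle hconn hS ℓ hℓ
  obtain ⟨n, B, hG, hB⟩ := hS
  have hd := pathDist_isMet hconn hℓ
  have hgenG : Gen G (pathDist G ℓ) := by
    intro f hf x y
    exact pathDist_gen hconn (fun u v huv => (hf u v huv).trans (pathDist_adj hℓ huv)) x y
  have hgen : Gen H (pathDist G ℓ) := gen_le hle hgenG
  exact (HD V H n B (fun t => TreewidthLE (H.induce (B t)) w) hG (fun t _ h => h) hB _ hd
    hgen).embedsL1 hD

end Vale.Agent.P235.K5.GX
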