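import Vale.Agent.P235.K5.SX.Defs

/-!
# Line GX: sums over cliques with at most three vertices of pieces without `K_{3,m}` minor and pieces
of bounded treewidth.  Literals (helper473, board #18449).
-/

set_option autoImplicit false

namespace Vale.Agent.P235.K5.GX

open SimpleGraph Vale.Agent.P235 Vale.Agent.P235.H134 Vale.Agent.P235.H56 Vale.Agent.P235.K5
open Vale.Agent.P235.K5.SX

/-- `K_{3,m}` -/
abbrev K3 (m : ℕ) : SimpleGraph (Fin 3 ⊕ Fin m) := completeBipartiteGraph (Fin 3) (Fin m)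

/-- [G1] boundedly many marks are close to all near-centres of the triple -/
def CentreMStmt : Prop :=
  ∀ (m : ℕ) (V : Type) [Finite V] (G : SimpleGraph V) (d : V → V → ℝ), IsMet d → Gen G d →
    ∀ R : Fin 3 → V, Function.Injective R → ¬ IsMinor (K3 m) G →
      ∃ M : Finset V, M.card ≤ m + 2 ∧ (∀ i, R i ∈ M) ∧
        ∀ x, ∃ p ∈ M, ∃ i, d x p ≤ 6 * (d x (R i) - gp d R i)

/-- [G2] -/
def TriMStmt : Prop :=
  ∀ (V : Type) [Finite V] (G : SimpleGraph V) (c : ℝ), 0 < c → EdgeExact G c →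
    ∀ d : V → V → ℝ, IsMet d → Gen G d → ∀ R : Fin 3 → V, TriAdj G R →
      ∃ F : V → V → ℝ, IsL1 F ∧ (∀ i j, F (R i) (R j) = d (R i) (R j)) ∧
        (∀ x y i, c / 3 * min (d x y) (d x (R i) - gp d R i) ≤ F x y) ∧ ∀ x y, F x y ≤ d x y

/-- the three cases of a piece of type Q with root `R` and marks `M` -/
def Tri4 {V : Type} (k η : ℝ) (d F : V → V → ℝ) (R M : Set V) (x y : V) : Prop :=
  k * d x y ≤ F x y ∨ (∃ r ∈ R, ∃ s ∈ R, F r s + k * (d x r + d y s) ≤ F x y) ∨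
    ((∀ r ∈ R, ∀ s ∈ R, 1 / 1024 * d x y ≤ d x r + d y s) ∧
      ∃ p ∈ M, ∃ q ∈ M, d x p + d y q ≤ η * d x y)

/-- the pieces of type Q -/
def QC (c : ℝ) (m : ℕ) (V : Type) (G : SimpleGraph V) (R : Set V) : Prop :=
  G.Connected ∧ EdgeExact G c ∧ (R.ncard = 3 → ¬ IsMinor (K3 m) G)

/-- [G3] -/
def G3Stmt : Prop :=
  ∀ (m : ℕ) (c η : ℝ), 0 < c → c ≤ 1 → 0 < η → η ≤ 1 / 2048 →
    ∀ (V : Type) [Finite V] (G : SimpleGraph V) (R : Set V), QC c m V G R → R.ncard ≤ 3 →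
      (∀ u ∈ R, ∀ v ∈ R, u ≠ v → G.Adj u v) → ∀ d : V → V → ℝ, IsMet d → Gen G d →
      ∀ ρ : V → V → ℝ, IsL1 ρ → (∀ x ∈ R, ∀ y ∈ R, ρ x y ≤ d x y) →
        ∃ (F : V → V → ℝ) (M : Set V), IsL1 F ∧ (∀ x ∈ R, ∀ y ∈ R, F x y = ρ x y) ∧
          (∀ x y, F x y ≤ d x y) ∧ R ⊆ M ∧ M.ncard ≤ m + 3 ∧
          ∀ x y, Tri4 (c * η / 12288) η d F R M x y

/-- the final tree: the bags which are not `big` add one vertex each; the `big` bag of a piece of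
type Q is its last one, and any two marks (one of them not a root) lie in a bag which is not big -/
structure RefM (kk : ℕ) {V : Type} (H : SimpleGraph V) (n : ℕ) (B : ℕ → Set V) (T : ℕ → Prop)
    (M : ℕ → Set V) (H' : SimpleGraph V) (m : ℕ) (C : ℕ → Set V) (phi : ℕ → ℕ)
    (big : ℕ → Prop) : Prop where
  le : H ≤ H'
  glued : Glued kk H' m C
  mono : ∀ s s', s ≤ s' → s' < m → phi s ≤ phi s'
  lt : ∀ s < m, phi s < n
  new : ∀ s < m, ∃ v ∈ C s, v ∉ Bef C s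
  sub : ∀ s < m, C s ⊆ B (phi s)
  cov : ∀ t < n, ∀ v ∈ B t, ∃ s < m, phi s ≤ t ∧ v ∈ C s
  one : ∀ s < m, ¬ big s → ∃ v, v ∉ Adh C s ∧ C s = insert v (Adh C s)
  last : ∀ s < m, big s → ¬ T (phi s) ∧ ∀ s' < m, phi s' = phi s → s' ≤ s
  mark : ∀ t < n, ¬ T t → ∀ p ∈ M t, ∀ q ∈ M t, p ∉ Adh B t →
    ∃ s < m, ¬ big s ∧ phi s = t ∧ p ∈ C s ∧ q ∈ C s

/-- [G4] the marks of the pieces of type Q are inserted in the fine tree of [S5] -/
def G4Stmt : Prop :=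
  ∀ (w j : ℕ) (V : Type) [Finite V] (H : SimpleGraph V) (n : ℕ) (B : ℕ → Set V) (T : ℕ → Prop)
    (H₁ : SimpleGraph V) (m₁ : ℕ) (C₁ : ℕ → Set V) (phi₁ : ℕ → ℕ), Glued 3 H n B →
    Refn w H n B T H₁ m₁ C₁ phi₁ → ∀ M : ℕ → Set V,
    (∀ t < n, ¬ T t → Adh B t ⊆ M t ∧ M t ⊆ B t ∧ (M t).ncard ≤ j) →
    ∃ (H' : SimpleGraph V) (m : ℕ) (C : ℕ → Set V) (phi : ℕ → ℕ) (big : ℕ → Prop),
      RefM (max 3 w + j) H n B T M H' m C phi big

/-- sums over at most three vertices of pieces of treewidth at most `w` and pieces of type Q -/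
def Sum3X (w m : ℕ) (c : ℝ) {V : Type} (H : SimpleGraph V) : Prop :=
  ∃ (n : ℕ) (B : ℕ → Set V), Glued 3 H n B ∧
    ∀ t < n, TreewidthLE (H.induce (B t)) w ∨
      QC c m (B t) (H.induce (B t)) {x | (x : V) ∈ Adh B t}

/-- **[G5]** the theorem -/
def FinX : Prop :=
  ∀ (w m : ℕ) (c : ℝ), 0 < c → c ≤ 1 → ∃ K : ℝ, 1 ≤ K ∧ ∀ (V : Type) [Finite V]
    (G H : SimpleGraph V), G ≤ H → G.Connected → Sum3X w m c H → DistortionLE G K

end Vale.Agent.P235.K5.GX
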